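import Vale.Agent.P287.H270.Nod.Line

/-!
Existence of a line which meets a reduced sextic in six distinct points, outside of a given curve.
-/

namespace Vale.Agent.P287.H270

open Polynomial Vale.Agent.P287 Vale.Agent.P287.Theta

lemma squarefree_dh {f : R3} {m : ℕ} (hf : f.IsHomogeneous m) (hs : Squarefree f) :
    Squarefree (dh f) := by
  intro q hq
  obtain ⟨s, hs'⟩ := hq
  have hf0 : dh f ≠ 0 := dh_ne_zero hf hs.ne_zero
  have hq0 : q ≠ 0 := by
    rintro rfl
    rw [mul_zero, zero_mul] at hs'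
    exact hf0 hs'
  have hs0 : s ≠ 0 := by
    rintro rfl
    rw [mul_zero] at hs'
    exact hf0 hs'
  have hT : ∀ {p : ℂ[X][X]}, p ≠ 0 → Th p ≠ 0 := fun h => by
    rwa [Ne, map_eq_zero_iff _ Th_injective]
  have h1 : (Th q).natDegree + (Th q).natDegree + (Th s).natDegree ≤ m := by
    have h2 : (Th (dh f)).natDegree ≤ m := TD_dh hf
    rw [hs', map_mul, map_mul, natDegree_mul (mul_ne_zero (hT hq0) (hT hq0)) (hT hs0),
      natDegree_mul (hT hq0) (hT hq0)] at h2
    exact h2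
  obtain ⟨Q, hQ, hQe⟩ := exists_homog (TD_natDegree q)
  obtain ⟨P, hP, hPs⟩ := exists_homog (m := m - ((Th q).natDegree + (Th q).natDegree)) (p := s)
    (by rw [TD]; omega)
  have h2 : f = Q * Q * P := by
    refine dh_inj hf ?_ (by rw [map_mul, map_mul, hQe, hPs, hs'])
    have := (hQ.mul hQ).mul hP
    rwa [show (Th q).natDegree + (Th q).natDegree +
      (m - ((Th q).natDegree + (Th q).natDegree)) = m by omega] at this
  have h3 : IsUnit Q := hs Q (h2 ▸ Dvd.intro _ rfl)
  rw [← hQe]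
  exact h3.map dh

lemma exists_bezout_of_coprime {p q : ℂ[X][X]} (h1 : IsCoprime (crF p) (crF q)) :
    ∃ (u v : ℂ[X][X]) (b : ℂ[X]), b ≠ 0 ∧ p * u + q * v = C b := by
  obtain ⟨a, a', ha⟩ := h1
  obtain ⟨b, c, hb, hbc⟩ := exists_crF a
  obtain ⟨b', c', hb', hbc'⟩ := exists_crF a'
  refine ⟨C b' * c, C b * c', b * b', mul_ne_zero hb hb', crF_injective ?_⟩
  have hC : ∀ x : ℂ[X], crF (C x) = C (algebraMap ℂ[X] FF x) := fun x => by simp [crF]
  rw [map_add, map_mul, map_mul, map_mul, map_mul, ← hbc, ← hbc', hC, hC, hC, map_mul, C_mul]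
  linear_combination (C (algebraMap ℂ[X] FF b) * C (algebraMap ℂ[X] FF b')) * ha

lemma separable_crF {p : ℂ[X][X]} (hp : p.Monic) (hs : Squarefree p) : (crF p).Separable := by
  have hchar : CharZero FF := charZero_of_injective_algebraMap (algebraMap ℂ FF).injective
  rw [PerfectField.separable_iff_squarefree]
  intro a ha
  have hp0 : crF p ≠ 0 := by
    rw [Ne, map_eq_zero_iff _ crF_injective]
    exact hp.ne_zero
  have ha0 : a ≠ 0 := by
    rintro rfl
    rw [mul_zero, zero_dvd_iff] at ha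
    exact hp0 ha
  have hl : a.leadingCoeff ≠ 0 := leadingCoeff_ne_zero.mpr ha0
  obtain ⟨q, hq⟩ := IsIntegrallyClosed.eq_map_mul_C_of_dvd FF hp
    (dvd_of_mul_left_dvd ha : a ∣ p.map (algebraMap ℂ[X] FF))
  have hinj : Function.Injective (algebraMap ℂ[X] FF) := IsFractionRing.injective ℂ[X] FF
  have hqm : q.Monic := by
    have h1 := congrArg leadingCoeff hq
    rw [leadingCoeff_mul, leadingCoeff_C, leadingCoeff_map_of_injective hinj] at h1
    have h2 : algebraMap ℂ[X] FF q.leadingCoeff = 1 := by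
      refine mul_right_cancel₀ hl ?_
      rw [h1, one_mul]
    exact hinj (by rw [h2, map_one])
  have h1 : (q * q).map (algebraMap ℂ[X] FF) ∣ p.map (algebraMap ℂ[X] FF) := by
    refine dvd_trans ?_ ha
    rw [Polynomial.map_mul]
    conv_rhs => rw [← hq]
    exact ⟨C a.leadingCoeff * C a.leadingCoeff, by ring⟩
  rw [Polynomial.map_dvd_map _ hinj (hqm.mul hqm)] at h1
  have h2 : IsUnit q := hs q h1
  rw [← hq]
  exact (h2.map (mapRingHom (algebraMap ℂ[X] FF))).mul (isUnit_C.mpr (isUnit_iff_ne_zero.mpr hl))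

theorem exists_goodLine {f g : R3} {d : ℕ} (hf : f.IsHomogeneous 6) (hfs : Squarefree f)
    (hg : g.IsHomogeneous d) (hd : 2 ≤ d) (hgi : Irreducible g) (hgf : ¬ g ∣ f) :
    ∃ (T S : Matrix (Fin 3) (Fin 3) ℂ) (z : Fin 6 → ℂ) (c6 : ℂ), GoodLine f g T S z c6 := by
  -- a point outside of the curve
  obtain ⟨P, hP⟩ : ∃ P : Fin 3 → ℂ, MvPolynomial.eval P f ≠ 0 := by
    by_contra hcon
    push Not at hcon
    apply hfs.ne_zero
    apply MvPolynomial.funext
    intro P
    rw [hcon, map_zero]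
  have hP0 : P ≠ 0 := by
    rintro rfl
    apply hP
    have h1 : MvPolynomial.eval (0 : Fin 3 → ℂ) f = MvPolynomial.constantCoeff f := by
      rw [MvPolynomial.eval_zero]
    rw [h1, MvPolynomial.constantCoeff_eq]
    exact hf.coeff_eq_zero (by rw [map_zero]; norm_num)
  obtain ⟨T1, S1, hT1, hT1P⟩ := exists_matrix hP0
  set f1 := sb T1 f with hf1
  set g1 := sb T1 g with hg1
  have hf1h : f1.IsHomogeneous 6 := sb_homog T1 hf
  have hf1s : Squarefree f1 := by
    intro a ha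
    have h1 := map_dvd (sb S1) ha
    rw [map_mul, hf1, sb_inv hT1] at h1
    have h2 := (hfs _ h1).map (sb T1)
    rwa [sb_inv (mul_eq_one_comm.mp hT1)] at h2
  have hg1h : g1.IsHomogeneous d := sb_homog T1 hg
  have hg1i : Irreducible g1 := sb_irreducible hT1 hgi
  have hgf1 : ¬ g1 ∣ f1 := fun h => hgf ((sb_dvd_iff hT1).mp h)
  set c6 := MvPolynomial.eval ![0, 0, 1] f1 with hc6
  have hc60 : c6 ≠ 0 := by rw [hc6, hf1, eval_sb, hT1P]; exact hP
  set p := dh f1 with hp
  have hpc : p.coeff 6 = C c6 := coeff_six_dh hf1h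
  have hpd : p.natDegree = 6 := natDegree_eq_of_le_of_coeff_ne_zero (natDegree_dh_le hf1h)
    (by rw [hpc, Ne, C_eq_zero]; exact hc60)
  have hcc : (C (C c6⁻¹) : ℂ[X][X]) * C (C c6) = 1 := by
    rw [← C_mul, ← C_mul, inv_mul_cancel₀ hc60, C_1, C_1]
  have hpm : (C (C c6⁻¹) * p).Monic := by
    rw [Monic, leadingCoeff_mul, leadingCoeff_C, leadingCoeff, hpd, hpc, ← C_mul,
      inv_mul_cancel₀ hc60, C_1]
  have hu : IsUnit (C (C c6⁻¹) : ℂ[X][X]) := IsUnit.of_mul_eq_one _ hcc
  have hps : Squarefree (C (C c6⁻¹) * p) := by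
    have h1 : Squarefree p := squarefree_dh hf1h hf1s
    exact (h1.squarefree_of_dvd (hu.mul_left_dvd.mpr dvd_rfl))
  have hsepF := separable_crF hpm hps
  obtain ⟨u, v, b, hb, hbe⟩ := exists_bezout_of_coprime
    (p := C (C c6⁻¹) * p) (q := derivative (C (C c6⁻¹) * p)) (by
      have h1 : crF (derivative (C (C c6⁻¹) * p)) = derivative (crF (C (C c6⁻¹) * p)) := by
        simp only [crF, coe_mapRingHom, derivative_map]
      rw [h1]
      exact hsepF)
  obtain ⟨u', v', b', hb', hbe'⟩ := exists_bezout (p := dh g1) (q := p)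
    (prime_dh hg1h hd hg1i) (natDegree_dh_ne hg1h hd hg1i)
    (fun h => hgf1 (dvd_of_dh_dvd' hg1h hd hg1i hf1h h))
  obtain ⟨x0, hx0⟩ : ∃ x0 : ℂ, (b * b').eval x0 ≠ 0 := by
    by_contra hcon
    push Not at hcon
    apply mul_ne_zero hb hb'
    apply Polynomial.funext
    intro x
    rw [hcon, eval_zero]
  rw [eval_mul] at hx0
  have hbx : b.eval x0 ≠ 0 := left_ne_zero_of_mul hx0
  have hbx' : b'.eval x0 ≠ 0 := right_ne_zero_of_mul hx0
  set p0 := p.map (evalRingHom x0) with hp0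
  have hsep : p0.Separable := by
    rw [Separable]
    have h2 := congrArg (Polynomial.map (evalRingHom x0)) hbe
    rw [Polynomial.map_add, Polynomial.map_mul, Polynomial.map_mul, map_C, derivative_C_mul,
      Polynomial.map_mul, Polynomial.map_mul, map_C, ← derivative_map,
      coe_evalRingHom, eval_C, map_C, coe_evalRingHom] at h2
    refine ⟨C c6⁻¹ * u.map (evalRingHom x0) * C (b.eval x0)⁻¹,
      C c6⁻¹ * v.map (evalRingHom x0) * C (b.eval x0)⁻¹, ?_⟩
    have h3 : C (b.eval x0) * C (b.eval x0)⁻¹ = (1 : ℂ[X]) := by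
      rw [← C_mul, mul_inv_cancel₀ hbx, C_1]
    linear_combination (C (b.eval x0)⁻¹) * h2 + h3
  obtain ⟨z, hz, hpz⟩ := exists_roots (p := p0) (c := c6)
    (by rw [hp0, coeff_map, hpc]; simp) hc60
    ((natDegree_map_le).trans hpd.le) hsep
  let T2 : Matrix (Fin 3) (Fin 3) ℂ := !![0, 1, 0; 1, x0, 0; 0, 0, 1]
  let S2 : Matrix (Fin 3) (Fin 3) ℂ := !![-x0, 1, 0; 1, 0, 0; 0, 0, 1]
  have hT2 : T2 * S2 = 1 := by
    ext i j
    fin_cases i <;> fin_cases j <;> simp [T2, S2, Matrix.mul_apply, Fin.sum_univ_three]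
  have htop : ∀ P : R3, MvPolynomial.aeval ![0, 1, X] (sb T2 P) =
      (dh P).map (evalRingHom x0) := by
    intro P
    rw [map_dh, aeval_sb]
    have h2 : (fun i => ∑ j, C (T2 i j) * (![0, 1, X] : Fin 3 → ℂ[X]) j) = ![1, C x0, X] := by
      funext i
      fin_cases i <;> simp [T2, Fin.sum_univ_three]
    rw [h2]
  have hln : ∀ P : R3, ln (T1 * T2) P = (dh (sb T1 P)).map (evalRingHom x0) := by
    intro P
    rw [ln_apply, ← sb_sb, htop]
  refine ⟨T1 * T2, S2 * S1, z, c6, ?_, hz, hc60, ?_, ?_⟩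
  · rw [← mul_assoc, mul_assoc T1, hT2, mul_one, hT1]
  · rw [hln]
    exact hpz
  · intro k h2
    rw [hln] at h2
    have h3 := congrArg (fun q => (Polynomial.map (evalRingHom x0) q).eval (z k)) hbe'
    simp only [Polynomial.map_add, Polynomial.map_mul, map_C, eval_add, eval_mul, eval_C,
      coe_evalRingHom] at h3
    have h4 : p0.eval (z k) = 0 := by
      rw [hpz, eval_mul, eval_prod, Finset.prod_eq_zero (Finset.mem_univ k) (by simp), mul_zero]
    rw [← hp0, h4, zero_mul, add_zero, h2, zero_mul] at h3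
    exact hbx' h3.symm

end Vale.Agent.P287.H270
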