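import Vale.Agent.P287.H270.Nod.Pow
import Vale.Agent.P287.H270.Nod.Exist
import Vale.Agent.P287.Nod.Spec
import Vale.Agent.P287.EvenN.AdjMinor
import Vale.Agent.P287.H621.E1

/-!
Dixon's construction on a reduced plane sextic.
-/

namespace Vale.Agent.P287.H270

open Polynomial Matrix Vale.Agent.P287 Vale.Agent.P287.Theta Vale.Agent.P287.EvenN

section shape

variable {M : Matrix (Fin 4) (Fin 4) R3}

lemma degE_eq' : ∀ i j : Fin 4, degE i j = 1 + wt0 i + wt0 j := by decide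

lemma wt0_le : ∀ i : Fin 4, wt0 i ≤ 1 := by decide

lemma hom_entry (hM : FibShape M) (i j : Fin 4) : (M i j).IsHomogeneous (1 + wt0 i + wt0 j) := by
  rw [← degE_eq']
  exact hM.entry i j

lemma hom_adj (hM : FibShape M) (i j : Fin 4) :
    (M.adjugate i j).IsHomogeneous (5 - wt0 i - wt0 j) := by
  refine H908.adj_hom₂ M (fun i => 1 + wt0 i) wt0 (hom_entry hM) i j _ ?_
  have h1 : ∑ i, (1 + wt0 i) = 5 := by decide
  have h2 : ∑ i, wt0 i = 1 := by decide
  have := wt0_le i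
  have := wt0_le j
  rw [h1, h2]
  omega

lemma adj_symm' {R : Type*} [CommRing R] {n : ℕ} {M : Matrix (Fin n) (Fin n) R} (hM : M.IsSymm)
    (i j : Fin n) : M.adjugate i j = M.adjugate j i := by
  have h1 := Matrix.adjugate_transpose M
  rw [hM.eq] at h1
  exact (congrFun (congrFun h1 j) i)

/-- degree of `adj(M) v` -/
lemma hom_adj_mulVec (hM : FibShape M) {d : ℕ} {v : Fin 4 → R3}
    (hv : ∀ i, (v i).IsHomogeneous (d + wt0 i)) (i : Fin 4) :
    ((M.adjugate *ᵥ v) i).IsHomogeneous (d + 5 - wt0 i) := by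
  rw [mulVec, dotProduct]
  refine MvPolynomial.IsHomogeneous.sum _ _ _ fun j _ => ?_
  have h1 := (hom_adj hM i j).mul (hv j)
  have := wt0_le i
  have := wt0_le j
  rwa [show 5 - wt0 i - wt0 j + (d + wt0 j) = d + 5 - wt0 i by omega] at h1

/-- degree of `v . adj(M) v'` -/
lemma hom_pair (hM : FibShape M) {d e : ℕ} {v v' : Fin 4 → R3}
    (hv : ∀ i, (v i).IsHomogeneous (d + wt0 i)) (hv' : ∀ i, (v' i).IsHomogeneous (e + wt0 i)) :
    (v ⬝ᵥ (M.adjugate *ᵥ v')).IsHomogeneous (d + e + 5) := by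
  rw [dotProduct]
  refine MvPolynomial.IsHomogeneous.sum _ _ _ fun i _ => ?_
  have h1 := (hv i).mul (hom_adj_mulVec hM hv' i)
  have := wt0_le i
  rwa [show d + wt0 i + (e + 5 - wt0 i) = d + e + 5 by omega] at h1

lemma dvd_of_mul_g {f g x : R3} (hgi : Irreducible g) (hgf : ¬ g ∣ f) (h : f ∣ g * x) :
    f ∣ x := by
  obtain ⟨c, hc⟩ := h
  obtain ⟨e, rfl⟩ := (hgi.prime.dvd_or_dvd (⟨x, hc.symm⟩ : g ∣ f * c)).resolve_left hgf
  refine ⟨e, mul_left_cancel₀ hgi.ne_zero ?_⟩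
  rw [hc]
  ring

end shape

section minors

variable {R : Type*} [CommRing R]

/-- `vᵀ N v'` -/
lemma pair_eq_sum {n : ℕ} (N : Matrix (Fin n) (Fin n) R) (v v' : Fin n → R) :
    v ⬝ᵥ (N *ᵥ v') = ∑ a, ∑ b, v a * N a b * v' b := by
  rw [dotProduct]
  refine Finset.sum_congr rfl fun a _ => ?_
  rw [mulVec, dotProduct, Finset.mul_sum]
  exact Finset.sum_congr rfl fun b _ => by ring

lemma minor_pair {n : ℕ} {f : R} (N : Matrix (Fin n) (Fin n) R)
    (hN : ∀ i j k l, f ∣ N i j * N k l - N i l * N k j) (v1 v2 v3 v4 : Fin n → R) :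
    f ∣ (v1 ⬝ᵥ (N *ᵥ v2)) * (v3 ⬝ᵥ (N *ᵥ v4)) - (v1 ⬝ᵥ (N *ᵥ v4)) * (v3 ⬝ᵥ (N *ᵥ v2)) := by
  have h1 : (v1 ⬝ᵥ (N *ᵥ v2)) * (v3 ⬝ᵥ (N *ᵥ v4)) - (v1 ⬝ᵥ (N *ᵥ v4)) * (v3 ⬝ᵥ (N *ᵥ v2)) =
      ∑ a, ∑ c, ∑ b, ∑ d, (v1 a * v3 c * v2 b * v4 d) * (N a b * N c d - N a d * N c b) := by
    have h2 : (v1 ⬝ᵥ (N *ᵥ v2)) * (v3 ⬝ᵥ (N *ᵥ v4)) =
        ∑ a, ∑ c, ∑ b, ∑ d, (v1 a * v3 c * v2 b * v4 d) * (N a b * N c d) := by
      rw [pair_eq_sum, pair_eq_sum, Finset.sum_mul_sum]
      refine Finset.sum_congr rfl fun a _ => Finset.sum_congr rfl fun c _ => ?_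
      rw [Finset.sum_mul_sum]
      exact Finset.sum_congr rfl fun b _ => Finset.sum_congr rfl fun d _ => by ring
    have h3 : (v1 ⬝ᵥ (N *ᵥ v4)) * (v3 ⬝ᵥ (N *ᵥ v2)) =
        ∑ a, ∑ c, ∑ b, ∑ d, (v1 a * v3 c * v2 b * v4 d) * (N a d * N c b) := by
      rw [pair_eq_sum, pair_eq_sum, Finset.sum_mul_sum]
      refine Finset.sum_congr rfl fun a _ => Finset.sum_congr rfl fun c _ => ?_
      rw [Finset.sum_mul_sum, Finset.sum_comm]
      exact Finset.sum_congr rfl fun b _ => Finset.sum_congr rfl fun d _ => by ring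
    rw [h2, h3]
    simp only [← Finset.sum_sub_distrib, mul_sub]
  rw [h1]
  exact Finset.dvd_sum fun a _ => Finset.dvd_sum fun c _ => Finset.dvd_sum fun b _ =>
    Finset.dvd_sum fun d _ => (hN a b c d).mul_left _

end minors

section dixon

variable {M : Matrix (Fin 4) (Fin 4) R3} {g : R3} {r : ℕ}

/-- The matrix of the quintics. -/
theorem exists_quintics (hM : FibShape M) (hg : g.IsHomogeneous (2 * r)) (hgi : Irreducible g)
    (hgf : ¬ g ∣ M.det) (v : Fin 6 → Fin 4 → R3)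
    (hv : ∀ i j, (v i j).IsHomogeneous (r + wt0 j))
    (hpair : ∀ i j, v i ⬝ᵥ (M.adjugate *ᵥ v j) ∈ Ideal.span {M.det, g}) :
    ∃ A : Matrix (Fin 6) (Fin 6) R3, A.IsSymm ∧ (∀ i j, (A i j).IsHomogeneous 5) ∧
      (∀ i j, M.det ∣ v i ⬝ᵥ (M.adjugate *ᵥ v j) - g * A i j) ∧ RankOneMod M.det A := by
  have h1 : ∀ i j, ∃ a : R3, a.IsHomogeneous 5 ∧
      M.det ∣ v i ⬝ᵥ (M.adjugate *ᵥ v j) - g * a := by
    intro i j
    refine exists_homog_coeff (n := 2 * r) (m := 5) ?_ hg hM.det ?_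
    · have := hom_pair hM (hv i) (hv j)
      rwa [← two_mul] at this
    · have := hpair i j
      rwa [Set.pair_comm] at this
  choose A hA5 hA using h1
  refine ⟨Matrix.of A, Matrix.IsSymm.ext fun i j => ?_, hA5, hA, ?_⟩
  · rw [Matrix.of_apply, Matrix.of_apply]
    have hs : v i ⬝ᵥ (M.adjugate *ᵥ v j) = v j ⬝ᵥ (M.adjugate *ᵥ v i) := by
      rw [pair_eq_sum, pair_eq_sum, Finset.sum_comm]
      refine Finset.sum_congr rfl fun a _ => Finset.sum_congr rfl fun b _ => ?_
      rw [adj_symm' hM.symm b a]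
      ring
    have h2 : M.det ∣ g * (A j i - A i j) := by
      have : g * (A j i - A i j) = (v i ⬝ᵥ (M.adjugate *ᵥ v j) - g * A i j) -
          (v j ⬝ᵥ (M.adjugate *ᵥ v i) - g * A j i) := by
        rw [hs]
        ring
      rw [this]
      exact dvd_sub (hA i j) (hA j i)
    have h3 := dvd_of_mul_g hgi hgf h2
    exact sub_eq_zero.mp (H908.eq_zero_of_dvd_of_lt hM.det ((hA5 j i).sub (hA5 i j)) h3
      (by norm_num))
  · intro i j k l
    rw [Matrix.of_apply, Matrix.of_apply, Matrix.of_apply, Matrix.of_apply]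
    refine dvd_of_mul_g hgi hgf (dvd_of_mul_g hgi hgf ?_)
    have h2 := minor_pair (f := M.det) M.adjugate (fun i j k l => adj_minor M i j k l)
      (v i) (v j) (v k) (v l)
    obtain ⟨e1, h3⟩ := hA i j
    obtain ⟨e2, h4⟩ := hA k l
    obtain ⟨e3, h5⟩ := hA i l
    obtain ⟨e4, h6⟩ := hA k j
    obtain ⟨e5, h7⟩ := h2
    refine ⟨e5 - e1 * (v k ⬝ᵥ (M.adjugate *ᵥ v l)) - g * A i j * e2 +
      e3 * (v k ⬝ᵥ (M.adjugate *ᵥ v j)) + g * A i l * e4, ?_⟩
    linear_combination h7 - (v k ⬝ᵥ (M.adjugate *ᵥ v l)) * h3 - g * A i j * h4 +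
      (v k ⬝ᵥ (M.adjugate *ᵥ v j)) * h5 + g * A i l * h6

variable {T S : Matrix (Fin 3) (Fin 3) ℂ} {z : Fin 6 → ℂ} {c6 : ℂ}

/-- Evaluation at a point of the line. -/
noncomputable def evl (T : Matrix (Fin 3) (Fin 3) ℂ) (x : ℂ) : R3 →+* ℂ :=
  (evalRingHom x).comp (ln T).toRingHom

lemma evl_apply (T : Matrix (Fin 3) (Fin 3) ℂ) (x : ℂ) (P : R3) :
    evl T x P = (ln T P).eval x := rfl

lemma evl_C (T : Matrix (Fin 3) (Fin 3) ℂ) (x c : ℂ) : evl T x (MvPolynomial.C c) = c := by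
  rw [evl_apply, ← MvPolynomial.algebraMap_eq, AlgHom.commutes, ← Polynomial.C_eq_algebraMap,
    eval_C]

/-- At the six points the adjugate is not zero; a diagonal entry is not zero. -/
lemma exists_diag (hM : FibShape M) (L : GoodLine M.det g T S z c6) (k : Fin 6) :
    ∃ p, evl T (z k) (M.adjugate p p) ≠ 0 := by
  obtain ⟨q, hq, hq'⟩ := L.simple k
  have h1 : (M.map (ln T)).det = (X - C (z k)) * q := by
    rw [← hq]
    exact ((ln T).map_det M).symm
  obtain ⟨a, b, hab⟩ := exists_adjugate_ndvd (M.map (ln T)) (prime_X_sub_C (z k)) h1 hq'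
  have h2 : (M.map (ln T)).adjugate a b = ln T (M.adjugate a b) :=
    (congrFun (congrFun (AlgHom.map_adjugate (ln T) M) a) b).symm
  rw [h2, dvd_iff_isRoot, IsRoot] at hab
  refine ⟨a, fun h => hab ?_⟩
  obtain ⟨e, he⟩ := adj_minor M a a b b
  have h3 := congrArg (evl T (z k)) he
  rw [map_sub, map_mul, map_mul, map_mul, h, zero_mul, zero_sub, adj_symm' hM.symm b a,
    show evl T (z k) M.det = 0 from L.eval_f k, zero_mul, neg_eq_zero] at h3
  exact mul_self_eq_zero.mp h3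

lemma evl_minor (L : GoodLine M.det g T S z c6) (k : Fin 6) (a b c d : Fin 4) :
    evl T (z k) (M.adjugate a b) * evl T (z k) (M.adjugate c d) =
      evl T (z k) (M.adjugate a d) * evl T (z k) (M.adjugate c b) := by
  obtain ⟨e, he⟩ := adj_minor M a b c d
  have h3 := congrArg (evl T (z k)) he
  rw [map_sub, map_mul, map_mul, map_mul, show evl T (z k) M.det = 0 from L.eval_f k,
    zero_mul, sub_eq_zero] at h3
  exact h3

/-- The value of the section attached to `v`. -/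
noncomputable def sec (M : Matrix (Fin 4) (Fin 4) R3) (T : Matrix (Fin 3) (Fin 3) ℂ)
    (x : ℂ) (p : Fin 4) (v : Fin 4 → R3) : ℂ := evl T x ((M.adjugate *ᵥ v) p)

lemma sec_pair (hM : FibShape M) (L : GoodLine M.det g T S z c6) (k : Fin 6) (p : Fin 4)
    (v v' : Fin 4 → R3) :
    evl T (z k) (v ⬝ᵥ (M.adjugate *ᵥ v')) * evl T (z k) (M.adjugate p p) =
      sec M T (z k) p v * sec M T (z k) p v' := by
  have h1 : ∀ w : Fin 4 → R3, sec M T (z k) p w =
      ∑ a, evl T (z k) (M.adjugate p a) * evl T (z k) (w a) := by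
    intro w
    rw [sec, mulVec, dotProduct, map_sum]
    exact Finset.sum_congr rfl fun a _ => map_mul _ _ _
  rw [h1, h1, pair_eq_sum, map_sum, Finset.sum_mul_sum, Finset.sum_mul]
  refine Finset.sum_congr rfl fun a _ => ?_
  rw [map_sum, Finset.sum_mul]
  refine Finset.sum_congr rfl fun b _ => ?_
  rw [map_mul, map_mul, adj_symm' hM.symm p a]
  have h2 := evl_minor L k a b p p
  linear_combination (evl T (z k) (v a) * evl T (z k) (v' b)) * h2

lemma sec_zero (L : GoodLine M.det g T S z c6) (k : Fin 6) {p : Fin 4}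
    (hp : evl T (z k) (M.adjugate p p) ≠ 0) {v : Fin 4 → R3} (h : sec M T (z k) p v = 0)
    (a : Fin 4) : evl T (z k) ((M.adjugate *ᵥ v) a) = 0 := by
  have h1 : ∀ (c : Fin 4), evl T (z k) ((M.adjugate *ᵥ v) c) =
      ∑ b, evl T (z k) (M.adjugate c b) * evl T (z k) (v b) := by
    intro c
    rw [mulVec, dotProduct, map_sum]
    exact Finset.sum_congr rfl fun a _ => map_mul _ _ _
  refine (mul_eq_zero.mp ?_).resolve_left hp
  rw [sec, h1] at h
  rw [h1, Finset.mul_sum]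
  have h2 : ∀ b, evl T (z k) (M.adjugate p p) *
      (evl T (z k) (M.adjugate a b) * evl T (z k) (v b)) = evl T (z k) (M.adjugate a p) *
        (evl T (z k) (M.adjugate p b) * evl T (z k) (v b)) := by
    intro b
    have h3 := evl_minor L k a b p p
    linear_combination (evl T (z k) (v b)) * h3
  rw [Finset.sum_congr rfl fun b _ => h2 b, ← Finset.mul_sum, h, mul_zero]

/-- The determinant of the matrix of quintics does not vanish. -/
lemma det_quintics (hM : FibShape M) (L : GoodLine M.det g T S z c6) (v : Fin 6 → Fin 4 → R3)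
    {A : Matrix (Fin 6) (Fin 6) R3} (hA5 : ∀ i j, (A i j).IsHomogeneous 5)
    (hA : ∀ i j, M.det ∣ v i ⬝ᵥ (M.adjugate *ᵥ v j) - g * A i j)
    (hker : ∀ c : Fin 6 → ℂ, (∀ k a, evl T (z k)
      ((M.adjugate *ᵥ (fun b => ∑ i, MvPolynomial.C (c i) * v i b)) a) = 0) → c = 0) :
    A.det ≠ 0 := by
  classical
  choose p hp using fun k => exists_diag hM L k
  set E : Matrix (Fin 6) (Fin 6) ℂ := Matrix.of fun i k => sec M T (z k) (p k) (v i) with hE
  have hEdet : E.det ≠ 0 := by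
    intro h0
    obtain ⟨c, hc, hcE⟩ := Matrix.exists_vecMul_eq_zero_iff.mpr h0
    apply hc
    apply hker
    intro k
    refine sec_zero L k (hp k) ?_
    have h1 := congrFun hcE k
    rw [Matrix.vecMul, dotProduct] at h1
    rw [sec, mulVec, dotProduct, map_sum]
    refine Eq.trans ?_ h1
    have h2 : ∀ i, c i * E i k = ∑ a, c i * (evl T (z k) (M.adjugate (p k) a) *
        evl T (z k) (v i a)) := by
      intro i
      rw [← Finset.mul_sum, hE, Matrix.of_apply, sec, mulVec, dotProduct, map_sum]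
      congr 1
      exact Finset.sum_congr rfl fun a _ => map_mul _ _ _
    rw [Finset.sum_congr rfl fun i _ => h2 i, Finset.sum_comm]
    refine Finset.sum_congr rfl fun a _ => ?_
    rw [map_mul, map_sum, Finset.mul_sum]
    refine Finset.sum_congr rfl fun i _ => ?_
    rw [map_mul, evl_C]
    ring
  have hval : ∀ i j k, evl T (z k) (A i j) =
      E i k * (evl T (z k) (M.adjugate (p k) (p k)) * evl T (z k) g)⁻¹ * E j k := by
    intro i j k
    obtain ⟨b, hb⟩ := hA i j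
    have h1 := congrArg (evl T (z k)) hb
    rw [map_sub, map_mul, map_mul, show evl T (z k) M.det = 0 from L.eval_f k, zero_mul,
      sub_eq_zero] at h1
    have h2 := sec_pair hM L k (p k) (v i) (v j)
    rw [h1] at h2
    have hgk : evl T (z k) g ≠ 0 := L.hg k
    have hpk := hp k
    simp only [hE, Matrix.of_apply]
    rw [mul_right_comm, ← h2]
    field_simp
  obtain ⟨ζ, hζ⟩ := Infinite.exists_notMem_finset (Finset.univ.image z)
  have hζ' : ∀ k, ζ ≠ z k := fun k hk => hζ (Finset.mem_image.mpr ⟨k, Finset.mem_univ k, hk.symm⟩)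
  intro h0
  have h1 : (Matrix.of fun i j => evl T ζ (A i j)).det = 0 := by
    have := congrArg (evl T ζ) h0
    rw [map_zero] at this
    rw [← this, RingHom.map_det]
    rfl
  have h2 : (Matrix.of fun i j => evl T ζ (A i j)) = E *
      Matrix.diagonal (fun k => (evl T (z k) (M.adjugate (p k) (p k)) * evl T (z k) g)⁻¹ *
        (Lagrange.basis Finset.univ z k).eval ζ) * Eᵀ := by
    ext i j
    have h3 : ln T (A i j) =
        Lagrange.interpolate Finset.univ z fun k => (ln T (A i j)).eval (z k) := by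
      refine Lagrange.eq_interpolate (L.hz.injOn) ?_
      refine lt_of_le_of_lt degree_le_natDegree ?_
      have := natDegree_ln_le T (hA5 i j)
      rw [Finset.card_univ, Fintype.card_fin]
      exact_mod_cast Nat.lt_succ_of_le this
    rw [Matrix.of_apply, evl_apply, h3, Lagrange.interpolate_apply, eval_finsetSum,
      Matrix.mul_apply]
    refine Finset.sum_congr rfl fun k _ => ?_
    rw [Matrix.mul_diagonal, Matrix.transpose_apply, eval_mul, eval_C, ← evl_apply T (z k),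
      hval]
    ring
  rw [h2, Matrix.det_mul, Matrix.det_mul, Matrix.det_transpose, Matrix.det_diagonal] at h1
  rcases mul_eq_zero.mp h1 with h3 | h3
  · rcases mul_eq_zero.mp h3 with h4 | h4
    · exact hEdet h4
    · obtain ⟨k, -, hk⟩ := Finset.prod_eq_zero_iff.mp h4
      rcases mul_eq_zero.mp hk with h5 | h5
      · rcases mul_eq_zero.mp (inv_eq_zero.mp h5) with h6 | h6
        · exact hp k h6
        · exact L.hg k h6
      · rw [Lagrange.basis, eval_prod] at h5
        obtain ⟨l, hl, hl0⟩ := Finset.prod_eq_zero_iff.mp h5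
        rw [Lagrange.basisDivisor, eval_mul, eval_C, eval_sub, eval_X, eval_C] at hl0
        rcases mul_eq_zero.mp hl0 with h6 | h6
        · rw [inv_eq_zero, sub_eq_zero] at h6
          exact (Finset.ne_of_mem_erase hl) (L.hz h6.symm)
        · exact hζ' l (sub_eq_zero.mp h6)
  · exact hEdet h3

end dixon

end Vale.Agent.P287.H270
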