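import Vale.Agent.P287.H270.Nod.Dix

/-!
Isotropy of the quadric surface fibration and linear changes of coordinates of the plane.
-/

namespace Vale.Agent.P287.H270

open Polynomial Matrix Vale.Agent.P287 Vale.Agent.P287.Theta Vale.Agent.P287.EvenN

/-- An isotropic vector over the function field gives an isotropic vector of forms. -/
theorem exists_form_of_isotropic {M : Matrix (Fin 4) (Fin 4) R3} (hM : FibShape M)
    (h : ∃ v : Fin 4 → RatK, v ≠ 0 ∧ v ⬝ᵥ (M.map (MvPolynomial.aeval tvec)) *ᵥ v = 0) :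
    ∃ (N : ℕ) (V : Fin 4 → R3), (∀ i, (V i).IsHomogeneous (N + 1 - wt0 i)) ∧ V ≠ 0 ∧
      V ⬝ᵥ (M *ᵥ V) = 0 := by
  obtain ⟨v, hv0, hv⟩ := h
  obtain ⟨d, hd⟩ := IsLocalization.exist_integer_multiples_of_finite
    (nonZeroDivisors (MvPolynomial (Fin 2) ℂ)) v
  choose w hw using hd
  have hd0 : algebraMap (MvPolynomial (Fin 2) ℂ) RatK d ≠ 0 :=
    IsFractionRing.to_map_ne_zero_of_mem_nonZeroDivisors d.2
  have hw' : ∀ i, algebraMap (MvPolynomial (Fin 2) ℂ) RatK (w i) =
      algebraMap (MvPolynomial (Fin 2) ℂ) RatK d * v i := by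
    intro i
    rw [hw i, Algebra.smul_def]
  set p : Fin 4 → ℂ[X][X] := fun i => crInv (w i) with hp
  have hpv : ∀ i, crMap (p i) = algebraMap (MvPolynomial (Fin 2) ℂ) RatK d * v i := by
    intro i
    rw [crMap_eq, hp, crTo_crInv, hw']
  obtain ⟨N, hN⟩ : ∃ N, ∀ i, TD N (p i) :=
    ⟨Finset.univ.sup fun i => (Th (p i)).natDegree, fun i =>
      (Finset.le_sup (f := fun i => (Th (p i)).natDegree) (Finset.mem_univ i))⟩
  have hV : ∀ i, ∃ V : R3, V.IsHomogeneous (N + 1 - wt0 i) ∧ dh V = p i := by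
    intro i
    refine exists_homog ((hN i).mono ?_)
    have := wt0_le i
    omega
  choose V hVh hVp using hV
  refine ⟨N, V, hVh, ?_, ?_⟩
  · rintro rfl
    apply hv0
    funext i
    have h1 := hpv i
    rw [← hVp i, Pi.zero_apply, map_zero, map_zero] at h1
    exact (mul_eq_zero.mp h1.symm).resolve_left hd0
  · have h1 : (V ⬝ᵥ (M *ᵥ V)).IsHomogeneous (2 * N + 3) := by
      rw [dotProduct]
      refine MvPolynomial.IsHomogeneous.sum _ _ _ fun i _ => ?_
      rw [mulVec, dotProduct, Finset.mul_sum]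
      refine MvPolynomial.IsHomogeneous.sum _ _ _ fun j _ => ?_
      have h2 := (hVh i).mul ((hom_entry hM i j).mul (hVh j))
      have := wt0_le i
      have := wt0_le j
      rwa [show N + 1 - wt0 i + (1 + wt0 i + wt0 j + (N + 1 - wt0 j)) = 2 * N + 3 by omega] at h2
    refine dh_eq_zero h1 (crMap_injective ?_)
    rw [map_zero]
    have h3 : crMap (dh (V ⬝ᵥ (M *ᵥ V))) =
        algebraMap (MvPolynomial (Fin 2) ℂ) RatK d ^ 2 *
          (v ⬝ᵥ (M.map (MvPolynomial.aeval tvec)) *ᵥ v) := by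
      simp only [dotProduct, mulVec, map_sum, map_mul, hVp, hpv, crMap_dh, Matrix.map_apply,
        Finset.mul_sum]
      exact Finset.sum_congr rfl fun i _ => Finset.sum_congr rfl fun j _ => by ring
    refine h3.trans ?_
    rw [hv, mul_zero]

/-- An isotropic vector of forms gives an isotropic vector over the function field. -/
theorem isotropic_of_form {M : Matrix (Fin 4) (Fin 4) R3} {N : ℕ} {V : Fin 4 → R3}
    (hV : ∀ i, (V i).IsHomogeneous (N + 1 - wt0 i)) (hV0 : V ≠ 0) (h : V ⬝ᵥ (M *ᵥ V) = 0) :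
    ∃ v : Fin 4 → RatK, v ≠ 0 ∧ v ⬝ᵥ (M.map (MvPolynomial.aeval tvec)) *ᵥ v = 0 := by
  refine ⟨fun i => MvPolynomial.aeval tvec (V i), ?_, ?_⟩
  · intro h0
    apply hV0
    funext i
    have h1 := congrFun h0 i
    rw [← crMap_dh, Pi.zero_apply] at h1
    exact dh_eq_zero (hV i) (crMap_injective (by rw [h1, map_zero]))
  · have h1 := congrArg (MvPolynomial.aeval tvec) h
    rw [map_zero] at h1
    rw [← h1]
    simp only [dotProduct, mulVec, map_sum, map_mul, Matrix.map_apply]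

/-- Isotropy does not depend on the coordinates. -/
theorem isotropic_sb {M : Matrix (Fin 4) (Fin 4) R3} (hM : FibShape M)
    {T S : Matrix (Fin 3) (Fin 3) ℂ} (hTS : T * S = 1)
    (h : ∃ v : Fin 4 → RatK, v ≠ 0 ∧
      v ⬝ᵥ ((M.map (sb T)).map (MvPolynomial.aeval tvec)) *ᵥ v = 0) :
    ∃ v : Fin 4 → RatK, v ≠ 0 ∧ v ⬝ᵥ (M.map (MvPolynomial.aeval tvec)) *ᵥ v = 0 := by
  obtain ⟨N, V, hV, hV0, hVM⟩ := exists_form_of_isotropic (hM.sb T) h
  refine isotropic_of_form (N := N) (V := fun i => sb S (V i)) (fun i => sb_homog S (hV i)) ?_ ?_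
  · intro h0
    apply hV0
    funext i
    have h1 := congrArg (sb T) (congrFun h0 i)
    rw [Pi.zero_apply, map_zero] at h1
    rwa [sb_inv (mul_eq_one_comm.mp hTS)] at h1
  · have h1 := congrArg (sb S) hVM
    rw [map_zero] at h1
    rw [← h1]
    simp only [dotProduct, mulVec, map_sum, map_mul, Matrix.map_apply, sb_inv hTS]

end Vale.Agent.P287.H270
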