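import Vale.Agent.P287.Theta.GoodCoords
import Vale.Agent.P287.Theta.PencilAlg
import Vale.Agent.P287.H908.PhiLemma

/-!
Restriction of ternary forms to a line.
-/

namespace Vale.Agent.P287.H270

open Polynomial Vale.Agent.P287 Vale.Agent.P287.Theta

/-- Restriction to the line `t₀ = 0` after the substitution `T`. -/
noncomputable def ln (T : Matrix (Fin 3) (Fin 3) ℂ) : R3 →ₐ[ℂ] ℂ[X] :=
  (MvPolynomial.aeval ![0, 1, X]).comp (sb T)

lemma ln_apply (T : Matrix (Fin 3) (Fin 3) ℂ) (P : R3) :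
    ln T P = MvPolynomial.aeval ![0, 1, X] (sb T P) := rfl

lemma ln_eq_top (T : Matrix (Fin 3) (Fin 3) ℂ) {P : R3} {n : ℕ} (hP : P.IsHomogeneous n) :
    ln T P = top n (dh (sb T P)) := by
  rw [ln_apply, top_dh (sb_homog T hP)]

lemma natDegree_ln_le (T : Matrix (Fin 3) (Fin 3) ℂ) {P : R3} {n : ℕ} (hP : P.IsHomogeneous n) :
    (ln T P).natDegree ≤ n := by
  rw [ln_eq_top T hP]
  exact natDegree_top_le n _

/-- The equation of the line. -/
noncomputable def lam (S : Matrix (Fin 3) (Fin 3) ℂ) : R3 := sb S (MvPolynomial.X 0)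

lemma lam_homog (S : Matrix (Fin 3) (Fin 3) ℂ) : (lam S).IsHomogeneous 1 :=
  sb_homog S (MvPolynomial.isHomogeneous_X ℂ 0)

section

variable {S T : Matrix (Fin 3) (Fin 3) ℂ} (hTS : T * S = 1)
include hTS

lemma ln_lam : ln T (lam S) = 0 := by
  rw [ln_apply, lam, sb_inv (mul_eq_one_comm.mp hTS), MvPolynomial.aeval_X]
  rfl

lemma lam_ne_zero : lam S ≠ 0 := by
  intro h
  have h1 := congrArg (sb T) h
  rw [lam, sb_inv (mul_eq_one_comm.mp hTS), map_zero] at h1
  exact MvPolynomial.X_ne_zero _ h1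

/-- Lifting a polynomial from the line. -/
lemma exists_ln {u : ℂ[X]} {n : ℕ} (hu : u.natDegree ≤ n) :
    ∃ P : R3, P.IsHomogeneous n ∧ ln T P = u := by
  obtain ⟨p, hp, hpu⟩ := exists_lift hu
  obtain ⟨Q, hQ, hQp⟩ := exists_homog hp
  refine ⟨sb S Q, sb_homog S hQ, ?_⟩
  rw [ln_apply, sb_inv (mul_eq_one_comm.mp hTS), ← top_dh hQ, hQp, hpu]

/-- A form which vanishes on the line is divisible by its equation. -/
lemma exists_of_ln_eq_zero {P : R3} {n : ℕ} (hP : P.IsHomogeneous n) (h0 : ln T P = 0) :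
    ∃ Q : R3, Q.IsHomogeneous (n - 1) ∧ P = lam S * Q := by
  have hQ := sb_homog T hP
  have h1 : top n (dh (sb T P)) = 0 := by rw [← ln_eq_top T hP, h0]
  cases n with
  | zero =>
    refine ⟨0, MvPolynomial.isHomogeneous_zero _ _ _, ?_⟩
    rw [mul_zero]
    obtain ⟨c, hc⟩ : ∃ c : ℂ, P = MvPolynomial.C c :=
      ⟨_, (MvPolynomial.totalDegree_eq_zero_iff_eq_C).mp (Nat.le_zero.mp hP.totalDegree_le)⟩
    rw [hc, ← MvPolynomial.algebraMap_eq, AlgHom.commutes] at h0
    rw [hc]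
    have h2 : c = 0 := by
      rwa [← Polynomial.C_eq_algebraMap, C_eq_zero] at h0
    rw [h2, MvPolynomial.C_0]
  | succ m =>
    have h2 := TD_of_top_eq_zero (TD_dh hQ) h1
    obtain ⟨Q, hQm, hQe⟩ := exists_homog h2
    have h3 : sb T P = MvPolynomial.X 0 * Q := by
      refine dh_inj hQ ?_ (by rw [map_mul, dh_X0, one_mul, hQe])
      have := (MvPolynomial.isHomogeneous_X ℂ (0 : Fin 3)).mul hQm
      rwa [add_comm] at this
    refine ⟨sb S Q, sb_homog S hQm, ?_⟩
    have h4 := congrArg (sb S) h3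
    rwa [sb_inv hTS, map_mul] at h4

end

/-- The homogeneous components of a multiple of a form. -/
lemma exists_hc_mul {f : R3} {d : ℕ} (hf : f.IsHomogeneous d) (q : R3) (j : ℕ) :
    ∃ q' : R3, MvPolynomial.homogeneousComponent j (f * q) = f * q' ∧ q'.IsHomogeneous (j - d) ∧
      (j < d → q' = 0) := by
  by_cases hj : d ≤ j
  · obtain ⟨k, rfl⟩ := Nat.exists_eq_add_of_le hj
    refine ⟨MvPolynomial.homogeneousComponent k q, H925.hc_mul hf k, ?_, fun h => absurd h (by omega)⟩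
    rw [Nat.add_sub_cancel_left]
    exact MvPolynomial.homogeneousComponent_isHomogeneous _ _
  · refine ⟨0, ?_, MvPolynomial.isHomogeneous_zero _ _ _, fun _ => rfl⟩
    rw [mul_zero]
    have h3 : f * q = ∑ i ∈ Finset.range (q.totalDegree + 1),
        f * MvPolynomial.homogeneousComponent i q := by
      rw [← Finset.mul_sum, MvPolynomial.sum_homogeneousComponent]
    rw [h3, map_sum]
    refine Finset.sum_eq_zero fun i _ => ?_
    rw [MvPolynomial.homogeneousComponent_of_mem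
      (hf.mul (MvPolynomial.homogeneousComponent_isHomogeneous i q)), if_neg]
    omega

/-- A line which meets the sextic `f = 0` in six distinct points outside of the curve `g = 0`. -/
structure GoodLine (f g : R3) (T S : Matrix (Fin 3) (Fin 3) ℂ) (z : Fin 6 → ℂ) (c6 : ℂ) :
    Prop where
  hTS : T * S = 1
  hz : Function.Injective z
  hc : c6 ≠ 0
  hf : ln T f = C c6 * ∏ k, (X - C (z k))
  hg : ∀ k, (ln T g).eval (z k) ≠ 0

namespace GoodLine

variable {f g : R3} {T S : Matrix (Fin 3) (Fin 3) ℂ} {z : Fin 6 → ℂ} {c6 : ℂ}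
  (L : GoodLine f g T S z c6)
include L

lemma ln_ne : ln T f ≠ 0 := by
  rw [L.hf]
  exact mul_ne_zero (C_ne_zero.mpr L.hc) (Finset.prod_ne_zero_iff.mpr fun k _ => X_sub_C_ne_zero _)

lemma eval_f (k : Fin 6) : (ln T f).eval (z k) = 0 := by
  rw [L.hf, eval_mul, eval_prod, Finset.prod_eq_zero (Finset.mem_univ k) (by simp), mul_zero]

lemma natDegree_f : (ln T f).natDegree = 6 := by
  rw [L.hf, natDegree_C_mul L.hc, natDegree_prod _ _ fun k _ => X_sub_C_ne_zero _]
  simp

lemma dvd_of_roots {w : ℂ[X]} (hw : ∀ k, w.eval (z k) = 0) : ln T f ∣ w := by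
  rw [L.hf]
  have h1 : (∏ k, (X - C (z k))) ∣ w :=
    Finset.prod_dvd_of_coprime (fun i _ j _ hij => pairwise_coprime_X_sub_C L.hz hij)
      (fun k _ => dvd_iff_isRoot.mpr (hw k))
  obtain ⟨v, rfl⟩ := h1
  refine ⟨C c6⁻¹ * v, ?_⟩
  have : C c6 * C c6⁻¹ = (1 : ℂ[X]) := by rw [← C_mul, mul_inv_cancel₀ L.hc, C_1]
  linear_combination (-(∏ k, (X - C (z k))) * v) * this

/-- simple roots -/
lemma simple (k : Fin 6) : ∃ q : ℂ[X], ln T f = (X - C (z k)) * q ∧ ¬ (X - C (z k)) ∣ q := by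
  refine ⟨C c6 * ∏ l ∈ Finset.univ.erase k, (X - C (z l)), ?_, ?_⟩
  · rw [L.hf, ← Finset.mul_prod_erase Finset.univ _ (Finset.mem_univ k)]
    ring
  · rw [dvd_iff_isRoot, IsRoot, eval_mul, eval_C, eval_prod, mul_eq_zero, not_or]
    refine ⟨L.hc, Finset.prod_ne_zero_iff.mpr fun l hl => ?_⟩
    rw [eval_sub, eval_X, eval_C, sub_ne_zero]
    exact fun h => (Finset.ne_of_mem_erase hl) (L.hz h.symm)

lemma coprime : IsCoprime (ln T f) (ln T g) := by
  rw [L.hf]
  have hu : IsUnit (C c6 : ℂ[X]) := isUnit_C.mpr (isUnit_iff_ne_zero.mpr L.hc)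
  rw [isCoprime_mul_unit_left_left hu]
  refine IsCoprime.prod_left fun k _ => ?_
  rw [(irreducible_X_sub_C (z k)).coprime_iff_not_dvd, dvd_iff_isRoot]
  exact L.hg k

/-- The equation of the line is not a zero divisor modulo `(f, g)`. -/
theorem mem_of_lam_mul {n m : ℕ} (hf : f.IsHomogeneous 6) (hg : g.IsHomogeneous m) {x : R3}
    (hx : x.IsHomogeneous n) (h : lam S * x ∈ Ideal.span {f, g}) : x ∈ Ideal.span {f, g} := by
  obtain ⟨a0, b0, hab0⟩ := Ideal.mem_span_pair.1 h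
  have hlx : (lam S * x).IsHomogeneous (1 + n) := (lam_homog S).mul hx
  obtain ⟨a, ha1, ha2, ha3⟩ := exists_hc_mul hf a0 (1 + n)
  obtain ⟨b, hb1, hb2, hb3⟩ := exists_hc_mul hg b0 (1 + n)
  have h1 : lam S * x = f * a + g * b := by
    rw [← ha1, ← hb1, ← map_add, mul_comm f, mul_comm g, hab0,
      MvPolynomial.homogeneousComponent_eq_self hlx]
  have h2 : ln T f * ln T a + ln T g * ln T b = 0 := by
    rw [← map_mul, ← map_mul, ← map_add, ← h1, map_mul, ln_lam L.hTS, zero_mul]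
  have h3 : ln T f ∣ ln T b := by
    refine L.coprime.dvd_of_dvd_mul_left ?_
    exact ⟨-ln T a, by linear_combination h2⟩
  obtain ⟨c, hc⟩ := h3
  have h4 : ln T a = -(ln T g * c) := by
    refine mul_left_cancel₀ L.ln_ne ?_
    rw [hc] at h2
    linear_combination h2
  obtain ⟨c', hc', hcc⟩ : ∃ c' : R3, (c'.IsHomogeneous (1 + n - m - 6) ∧
      (c' ≠ 0 → m + 6 ≤ 1 + n)) ∧ ln T c' = c := by
    by_cases hc0 : c = 0
    · exact ⟨0, ⟨MvPolynomial.isHomogeneous_zero _ _ _, fun h => absurd rfl h⟩, by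
        rw [map_zero, hc0]⟩
    · have hb0 : b ≠ 0 := by
        rintro rfl
        rw [map_zero] at hc
        exact (mul_ne_zero L.ln_ne hc0) hc.symm
      have h5 := natDegree_ln_le T hb2
      rw [hc, natDegree_mul L.ln_ne hc0, L.natDegree_f] at h5
      have h6 : ¬ (1 + n < m) := fun h => hb0 (hb3 h)
      obtain ⟨c', hc1, hc2⟩ := exists_ln L.hTS (u := c) (n := 1 + n - m - 6) (by omega)
      exact ⟨c', ⟨hc1, fun _ => by omega⟩, hc2⟩
  have hA : ∃ A : R3, a + g * c' = lam S * A := by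
    have h5 : (a + g * c').IsHomogeneous (1 + n - 6) := by
      refine ha2.add ?_
      by_cases h0 : c' = 0
      · rw [h0, mul_zero]
        exact MvPolynomial.isHomogeneous_zero _ _ _
      · have h6 := hc'.2 h0
        have := hg.mul hc'.1
        rwa [show m + (1 + n - m - 6) = 1 + n - 6 by omega] at this
    obtain ⟨Q, _, hQ⟩ := exists_of_ln_eq_zero L.hTS h5 (by
      rw [map_add, map_mul, hcc, h4]
      ring)
    exact ⟨Q, hQ⟩
  have hB : ∃ B : R3, b - f * c' = lam S * B := by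
    have h5 : (b - f * c').IsHomogeneous (1 + n - m) := by
      refine hb2.sub ?_
      by_cases h0 : c' = 0
      · rw [h0, mul_zero]
        exact MvPolynomial.isHomogeneous_zero _ _ _
      · have h6 := hc'.2 h0
        have := hf.mul hc'.1
        rwa [show 6 + (1 + n - m - 6) = 1 + n - m by omega] at this
    obtain ⟨Q, _, hQ⟩ := exists_of_ln_eq_zero L.hTS h5 (by
      rw [map_sub, map_mul, hcc, hc, sub_self])
    exact ⟨Q, hQ⟩
  obtain ⟨A, hA⟩ := hA
  obtain ⟨B, hB⟩ := hB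
  have h7 : x = f * A + g * B := by
    refine mul_left_cancel₀ (lam_ne_zero L.hTS) ?_
    rw [h1]
    linear_combination f * hA + g * hB
  rw [h7]
  exact Ideal.mem_span_pair.2 ⟨A, B, by ring⟩

end GoodLine

end Vale.Agent.P287.H270
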