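import Vale.Agent.P287.Theta.Minors

/-!
Minors of matrices of rank one modulo a squarefree element, and the determinant of the adjugate.
-/

namespace Vale.Agent.P287.H270

open Matrix Vale.Agent.P287.Theta

section ufd

variable {R : Type*} [CommRing R] [IsDomain R] [UniqueFactorizationMonoid R]

/-- Divisibility by a power of a squarefree element can be tested at its prime divisors. -/
lemma pow_dvd_of_primes (n : ℕ) (f : R) : Squarefree f → ∀ x : R,
    (∀ p : R, Prime p → p ∣ f → p ^ n ∣ x) → f ^ n ∣ x := by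
  induction f using UniqueFactorizationMonoid.induction_on_prime with
  | h₁ => exact fun h => absurd h not_squarefree_zero
  | h₂ u hu => exact fun _ x _ => (hu.pow n).dvd
  | h₃ f p hf hp ih =>
    intro hs x hx
    have hsf : Squarefree f := hs.squarefree_of_dvd (Dvd.intro_left p rfl)
    obtain ⟨y, rfl⟩ := ih hsf x fun q hq hqf => hx q hq (hqf.mul_left p)
    have hpf : ¬ p ∣ f := by
      rintro ⟨e, rfl⟩
      exact hp.not_isUnit (hs p ⟨e, by ring⟩)
    have h1 : p ^ n ∣ y := hp.pow_dvd_of_dvd_mul_left n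
      (fun h => hpf (hp.dvd_of_dvd_pow h)) (hx p hp (Dvd.intro _ rfl))
    obtain ⟨z, rfl⟩ := h1
    exact ⟨z, by ring⟩

lemma dvd_of_primes {f : R} (hs : Squarefree f) {x : R}
    (hx : ∀ p : R, Prime p → p ∣ f → p ∣ x) : f ∣ x := by
  have := pow_dvd_of_primes 1 f hs x (by simpa using hx)
  simpa using this

theorem pow_dvd_det_sf {f : R} (hf : Squarefree f) {n : ℕ}
    (X : Matrix (Fin (n + 1)) (Fin (n + 1)) R) (h : RankOneMod f X) : f ^ n ∣ X.det :=
  pow_dvd_of_primes n f hf _ fun _ hp hpf =>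
    pow_dvd_det hp X fun i j k l => hpf.trans (h i j k l)

lemma pow_dvd_adjugate_sf {f : R} (hf : Squarefree f) {n : ℕ}
    (X : Matrix (Fin (n + 2)) (Fin (n + 2)) R) (h : RankOneMod f X) (i j : Fin (n + 2)) :
    f ^ n ∣ X.adjugate i j := by
  rw [Matrix.adjugate_fin_succ_eq_det_submatrix]
  exact (pow_dvd_det_sf hf (X.submatrix j.succAbove i.succAbove) fun _ _ _ _ =>
    h _ _ _ _).mul_left _

end ufd

/-- At a simple root of the determinant the adjugate does not vanish. -/
lemma exists_adjugate_ndvd {R : Type*} [CommRing R] [IsDomain R] {n : ℕ}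
    (M : Matrix (Fin (n + 1)) (Fin (n + 1)) R) {p q : R} (hp : Prime p) (hM : M.det = p * q)
    (hq : ¬ p ∣ q) : ∃ i j, ¬ p ∣ M.adjugate i j := by
  by_contra hcon
  push Not at hcon
  choose y hy using hcon
  have h1 : M.adjugate = p • Matrix.of y := by
    ext i j
    rw [hy, Matrix.smul_apply, Matrix.of_apply, smul_eq_mul]
  have h2 := Matrix.det_adjugate M
  rw [h1, Matrix.det_smul, Fintype.card_fin, Nat.add_sub_cancel, hM, mul_pow, pow_succ,
    mul_assoc] at h2
  have h3 : p * (Matrix.of y).det = q ^ n := mul_left_cancel₀ (pow_ne_zero n hp.ne_zero) h2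
  exact hq (hp.dvd_of_dvd_pow (h3 ▸ Dvd.intro _ rfl))

end Vale.Agent.P287.H270
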