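import Vale.Agent.P287.H270.Nod.Dix
import Vale.Agent.P287.H684.Dim

/-!
Dixon's construction on a reduced plane sextic: the net of quadrics, and block [C].
-/

namespace Vale.Agent.P287.H270

open Polynomial Matrix Module Vale.Agent.P287 Vale.Agent.P287.Theta Vale.Agent.P287.EvenN
open Vale.Agent.P287.Nod

/-- A form of degree `m` which is divisible by a form of degree `n`. -/
lemma hom_quot {f q x : R3} {n m : ℕ} (hf : f.IsHomogeneous n) (hx : x.IsHomogeneous m)
    (hf0 : f ≠ 0) (h : x = f * q) : q.IsHomogeneous (m - n) ∧ (m < n → q = 0) := by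
  by_cases h0 : q = 0
  · rw [h0]
    exact ⟨MvPolynomial.isHomogeneous_zero _ _ _, fun _ => rfl⟩
  · obtain ⟨e, he, hq⟩ := degree_le_of_mul hf (h ▸ hx) (mul_ne_zero hf0 h0)
    refine ⟨?_, fun h => by omega⟩
    rwa [show m - n = e by omega]

lemma hom_adjugate {n m : ℕ} {X : Matrix (Fin (n + 1)) (Fin (n + 1)) R3}
    (hX : ∀ i j, (X i j).IsHomogeneous m) (i j : Fin (n + 1)) :
    (X.adjugate i j).IsHomogeneous (n * m) := by
  rw [Matrix.adjugate_fin_succ_eq_det_submatrix]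
  have h1 := isHomogeneous_det (X := X.submatrix j.succAbove i.succAbove) (m := m)
    (fun _ _ => hX _ _)
  have h2 : ((-1 : R3) ^ ((j : ℕ) + (i : ℕ))).IsHomogeneous 0 := by
    have := ((MvPolynomial.isHomogeneous_one (Fin 3) ℂ).neg).pow ((j : ℕ) + (i : ℕ))
    simpa using this
  have h3 := h2.mul h1
  rwa [zero_add] at h3

/-- The net of quadrics of a matrix of quintics. -/
theorem exists_net_of_quintics {f : R3} (hf : f.IsHomogeneous 6) (hfs : Squarefree f)
    {A : Matrix (Fin 6) (Fin 6) R3} (hAs : A.IsSymm) (hA5 : ∀ i j, (A i j).IsHomogeneous 5)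
    (hr : RankOneMod f A) (hA0 : A.det ≠ 0) :
    ∃ (M' : Matrix (Fin 6) (Fin 6) R3) (c0 : ℂ), c0 ≠ 0 ∧ M'.IsSymm ∧
      (∀ i j, (M' i j).IsHomogeneous 1) ∧ M' * A = f • (1 : Matrix (Fin 6) (Fin 6) R3) ∧
      M'.det = MvPolynomial.C c0 * f := by
  have hf0 : f ≠ 0 := hfs.ne_zero
  obtain ⟨c', hc'⟩ := pow_dvd_det_sf hfs A hr
  have hdet : A.det.IsHomogeneous 30 := isHomogeneous_det hA5
  have hf5 : (f ^ 5).IsHomogeneous 30 := hf.pow 5
  have hc'0 := (hom_quot hf5 hdet (pow_ne_zero 5 hf0) hc').1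
  obtain ⟨κ, rfl⟩ : ∃ c : ℂ, c' = MvPolynomial.C c :=
    ⟨_, (MvPolynomial.totalDegree_eq_zero_iff_eq_C).mp (Nat.le_zero.mp hc'0.totalDegree_le)⟩
  have hκ : κ ≠ 0 := by
    rintro rfl
    rw [MvPolynomial.C_0, mul_zero] at hc'
    exact hA0 hc'
  choose M0 hM0 using fun i j => pow_dvd_adjugate_sf hfs A hr i j
  have hf4 : (f ^ 4).IsHomogeneous 24 := hf.pow 4
  have hM01 : ∀ i j, (M0 i j).IsHomogeneous 1 := fun i j =>
    (hom_quot hf4 (hom_adjugate hA5 i j) (pow_ne_zero 4 hf0) (hM0 i j)).1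
  have hκi : (MvPolynomial.C κ⁻¹ : R3) * MvPolynomial.C κ = 1 := by
    rw [← MvPolynomial.C_mul, inv_mul_cancel₀ hκ, MvPolynomial.C_1]
  set M' : Matrix (Fin 6) (Fin 6) R3 := Matrix.of fun i j => MvPolynomial.C κ⁻¹ * M0 i j with hM'
  have hMA : M' * A = f • (1 : Matrix (Fin 6) (Fin 6) R3) := by
    have h1 := Matrix.adjugate_mul A
    refine Matrix.ext fun i j => ?_
    have h2 := congrFun (congrFun h1 i) j
    rw [Matrix.mul_apply] at h2
    simp only [hM0] at h2
    have h3 : f ^ 4 * ((M' * A) i j) =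
        f ^ 4 * ((f • (1 : Matrix (Fin 6) (Fin 6) R3)) i j) := by
      have h4 : f ^ 4 * ((M' * A) i j) = MvPolynomial.C κ⁻¹ * ∑ k, f ^ 4 * M0 i k * A k j := by
        rw [Matrix.mul_apply, Finset.mul_sum, Finset.mul_sum]
        refine Finset.sum_congr rfl fun k _ => ?_
        rw [hM', Matrix.of_apply]
        ring
      rw [h4, h2, hc', Matrix.smul_apply, Matrix.smul_apply, smul_eq_mul, smul_eq_mul]
      linear_combination (f ^ 5 * (1 : Matrix (Fin 6) (Fin 6) R3) i j) * hκi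
    exact mul_left_cancel₀ (pow_ne_zero 4 hf0) h3
  refine ⟨M', κ⁻¹, inv_ne_zero hκ, ?_, ?_, hMA, ?_⟩
  · refine Matrix.IsSymm.ext fun i j => ?_
    rw [hM', Matrix.of_apply, Matrix.of_apply]
    congr 1
    have h1 : A.adjugate j i = A.adjugate i j := adj_symm' hAs j i
    rw [hM0, hM0] at h1
    exact mul_left_cancel₀ (pow_ne_zero 4 hf0) h1
  · intro i j
    rw [hM', Matrix.of_apply]
    exact (hM01 i j).C_mul _
  · have h1 : M'.det * (f ^ 5 * MvPolynomial.C κ) = f ^ 6 := by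
      rw [← hc', ← Matrix.det_mul, hMA, Matrix.det_smul, Matrix.det_one, mul_one,
        Fintype.card_fin]
    refine mul_right_cancel₀ (pow_ne_zero 5 hf0) ?_
    have h2 : M'.det * f ^ 5 =
        (MvPolynomial.C κ⁻¹ * MvPolynomial.C κ) * (M'.det * f ^ 5) := by
      rw [hκi, one_mul]
    rw [h2]
    linear_combination (MvPolynomial.C κ⁻¹) * h1

section lift

variable {M : Matrix (Fin 4) (Fin 4) R3} {g : R3} {r : ℕ}
variable {T S : Matrix (Fin 3) (Fin 3) ℂ} {z : Fin 6 → ℂ} {c6 : ℂ}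

/-- A vector `v` for which `adj(M) v` vanishes at the six points is `M u + λ v'`. -/
theorem exists_of_evl_zero (hM : FibShape M) (L : GoodLine M.det g T S z c6) (hr : 1 ≤ r)
    {v : Fin 4 → R3} (hv : ∀ i, (v i).IsHomogeneous (r + wt0 i))
    (h0 : ∀ k a, evl T (z k) ((M.adjugate *ᵥ v) a) = 0) :
    ∃ u v' : Fin 4 → R3, (∀ i, (v' i).IsHomogeneous (r - 1 + wt0 i)) ∧
      (∀ i, ((M *ᵥ u) i).IsHomogeneous (r + wt0 i)) ∧ v = M *ᵥ u + lam S • v' := by
  have h1 : ∀ a, ∃ u0 : ℂ[X], ln T ((M.adjugate *ᵥ v) a) = ln T M.det * u0 := fun a =>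
    L.dvd_of_roots fun k => h0 k a
  choose u0 hu0 using h1
  have h2 : ∀ a, ∃ u : R3, ((u.IsHomogeneous (r - 1 - wt0 a)) ∧ (u ≠ 0 → wt0 a ≤ r - 1)) ∧
      ln T u = u0 a := by
    intro a
    by_cases hz : u0 a = 0
    · exact ⟨0, ⟨MvPolynomial.isHomogeneous_zero _ _ _, fun h => absurd rfl h⟩, by
        rw [map_zero, hz]⟩
    · have h3 := natDegree_ln_le T (hom_adj_mulVec hM hv a)
      rw [hu0, natDegree_mul L.ln_ne hz, L.natDegree_f] at h3
      obtain ⟨u, hu1, hu2⟩ := exists_ln L.hTS (u := u0 a) (n := r - 1 - wt0 a) (by omega)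
      exact ⟨u, ⟨hu1, fun _ => by omega⟩, hu2⟩
  choose u hu hu' using h2
  have hMu : ∀ i, ((M *ᵥ u) i).IsHomogeneous (r + wt0 i) := by
    intro i
    rw [mulVec, dotProduct]
    refine MvPolynomial.IsHomogeneous.sum _ _ _ fun j _ => ?_
    by_cases hz : u j = 0
    · rw [hz, mul_zero]
      exact MvPolynomial.isHomogeneous_zero _ _ _
    · have h3 := (hom_entry hM i j).mul (hu j).1
      have h4 := (hu j).2 hz
      rwa [show 1 + wt0 i + wt0 j + (r - 1 - wt0 j) = r + wt0 i by omega] at h3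
  have h5 : ∀ i, ln T ((M *ᵥ u) i) = ln T (v i) := by
    intro i
    refine mul_left_cancel₀ L.ln_ne ?_
    have h6 : M.det * v i = (M *ᵥ (M.adjugate *ᵥ v)) i := by
      rw [mulVec_mulVec, mul_adjugate, smul_mulVec, one_mulVec]
      rfl
    rw [← map_mul, ← map_mul, h6, mulVec, dotProduct, mulVec, dotProduct, map_mul, map_sum,
      map_sum, Finset.mul_sum]
    refine Finset.sum_congr rfl fun j _ => ?_
    rw [map_mul, map_mul, hu0, hu']
    ring
  have h7 : ∀ i, ∃ q : R3, q.IsHomogeneous (r - 1 + wt0 i) ∧ v i - (M *ᵥ u) i = lam S * q := by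
    intro i
    obtain ⟨q, hq, hq'⟩ := exists_of_ln_eq_zero L.hTS ((hv i).sub (hMu i)) (by
      rw [map_sub, h5, sub_self])
    refine ⟨q, ?_, hq'⟩
    rwa [show r + wt0 i - 1 = r - 1 + wt0 i by omega] at hq
  choose v' hv' hv'' using h7
  refine ⟨u, v', hv', hMu, ?_⟩
  funext i
  rw [Pi.add_apply, Pi.smul_apply, smul_eq_mul, ← hv'']
  ring

end lift

section spaces

variable {M : Matrix (Fin 4) (Fin 4) R3} {g : R3} {r : ℕ} {w : Fin 2 → Fin 4 → R3}

lemma mem_Xh {d : ℕ} {v : Fin 4 → R3} : v ∈ Xh M g w d ↔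
    (∀ i, (v i).IsHomogeneous (d + wt0 i)) ∧
    ∀ (e : ℕ) (m : Fin 4 → R3), (∀ i, (m i).IsHomogeneous (e + wt0 i)) →
      (∀ a, g ∣ w a ⬝ᵥ m) → v ⬝ᵥ (M.adjugate *ᵥ m) ∈ Ideal.span {M.det, g} := Iff.rfl

lemma mulVec_pair (hM : M.IsSymm) (u m : Fin 4 → R3) :
    (M *ᵥ u) ⬝ᵥ (M.adjugate *ᵥ m) = M.det * (u ⬝ᵥ m) := by
  have h1 : (M *ᵥ u) ⬝ᵥ (M.adjugate *ᵥ m) = u ⬝ᵥ (M *ᵥ (M.adjugate *ᵥ m)) := by
    rw [dotProduct_mulVec u M, ← mulVec_transpose, hM.eq]
  rw [h1, mulVec_mulVec, mul_adjugate, smul_mulVec, one_mulVec, dotProduct_smul, smul_eq_mul]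

/-- The image of `M` in degree `r`. -/
noncomputable def imM (M : Matrix (Fin 4) (Fin 4) R3) : (Fin 4 → R3) →ₗ[ℂ] (Fin 4 → R3) :=
  M.mulVecLin.restrictScalars ℂ

lemma imM_apply (u : Fin 4 → R3) : imM M u = M *ᵥ u := rfl

/-- The graded source of `M`. -/
noncomputable def src (r : ℕ) : Submodule ℂ (Fin 4 → R3) where
  carrier := {u | ∀ i, (u i).IsHomogeneous (r - 1 - wt0 i) ∧ (r - 1 < wt0 i → u i = 0)}
  add_mem' := fun {u v} hu hv i => ⟨(hu i).1.add (hv i).1, fun h => by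
    rw [Pi.add_apply, (hu i).2 h, (hv i).2 h, add_zero]⟩
  zero_mem' := fun i => ⟨MvPolynomial.isHomogeneous_zero _ _ _, fun _ => rfl⟩
  smul_mem' := fun c u hu i => ⟨by
    rw [Pi.smul_apply, MvPolynomial.smul_eq_C_mul]
    exact (hu i).1.C_mul c, fun h => by rw [Pi.smul_apply, (hu i).2 h, smul_zero]⟩

lemma src_zero (u : src r) : (u.1 0).IsHomogeneous (r - 2) := by
  have := (u.2 0).1
  rwa [show r - 1 - wt0 0 = r - 2 by rw [show wt0 0 = 1 from rfl]; omega] at this

lemma src_succ (u : src r) (i : Fin 3) : (u.1 i.succ).IsHomogeneous (r - 1) := by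
  have := (u.2 i.succ).1
  rwa [show r - 1 - wt0 i.succ = r - 1 by
    rw [show wt0 i.succ = 0 by fin_cases i <;> rfl]; omega] at this

/-- The dimension of the source. -/
lemma finrank_src (hr : 1 ≤ r) : Module.Finite ℂ (src r) ∧
    finrank ℂ (src r) ≤ 3 * (r + 1).choose 2 + r.choose 2 := by
  by_cases hr2 : 2 ≤ r
  · let φ : src r →ₗ[ℂ] MvPolynomial.homogeneousSubmodule (Fin 3) ℂ (r - 2) ×
        (Fin 3 → MvPolynomial.homogeneousSubmodule (Fin 3) ℂ (r - 1)) :=
      { toFun := fun u => (⟨u.1 0, src_zero u⟩, fun i => ⟨u.1 i.succ, src_succ u i⟩)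
        map_add' := fun u v => rfl
        map_smul' := fun c u => rfl }
    have hφ : Function.Injective φ := by
      intro u v huv
      have h0 : u.1 0 = v.1 0 := congrArg (fun x => (x.1 : R3)) huv
      have h1 : ∀ i : Fin 3, u.1 i.succ = v.1 i.succ := fun i =>
        congrArg (fun x => ((x.2 i :
          MvPolynomial.homogeneousSubmodule (Fin 3) ℂ (r - 1)) : R3)) huv
      refine Subtype.ext (funext fun i => ?_)
      refine Fin.cases h0 h1 i
    refine ⟨Module.Finite.of_injective φ hφ, ?_⟩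
    have h2 := LinearMap.finrank_le_finrank_of_injective hφ
    rw [finrank_prod, finrank_pi_fintype] at h2
    simp only [H684.finrank_homog, Finset.sum_const, Finset.card_univ, Fintype.card_fin,
      smul_eq_mul] at h2
    rw [show r - 2 + 2 = r by omega, show r - 1 + 2 = r + 1 by omega] at h2
    omega
  · obtain rfl : r = 1 := by omega
    let φ : src 1 →ₗ[ℂ] (Fin 3 → MvPolynomial.homogeneousSubmodule (Fin 3) ℂ (1 - 1)) :=
      { toFun := fun u => fun i => ⟨u.1 i.succ, src_succ u i⟩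
        map_add' := fun u v => rfl
        map_smul' := fun c u => rfl }
    have hφ : Function.Injective φ := by
      intro u v huv
      have h0 : u.1 0 = v.1 0 := by
        rw [(u.2 0).2 (by decide), (v.2 0).2 (by decide)]
      have h1 : ∀ i : Fin 3, u.1 i.succ = v.1 i.succ := fun i =>
        congrArg (fun x => ((x i :
          MvPolynomial.homogeneousSubmodule (Fin 3) ℂ (1 - 1)) : R3)) huv
      refine Subtype.ext (funext fun i => ?_)
      refine Fin.cases h0 h1 i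
    refine ⟨Module.Finite.of_injective φ hφ, ?_⟩
    have h2 := LinearMap.finrank_le_finrank_of_injective hφ
    rw [finrank_pi_fintype] at h2
    simp only [H684.finrank_homog, Finset.sum_const, Finset.card_univ, Fintype.card_fin,
      smul_eq_mul] at h2
    norm_num at h2 ⊢
    exact h2

/-- The vectors in the image of `M`. -/
lemma mem_map_src (hM : FibShape M) (hf0 : M.det ≠ 0) (hr : 1 ≤ r) {v u : Fin 4 → R3}
    (hv : ∀ i, (v i).IsHomogeneous (r + wt0 i)) (h : v = M *ᵥ u) :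
    v ∈ (src r).map (imM M) := by
  refine ⟨u, fun i => ?_, h.symm⟩
  have h1 : (M.adjugate *ᵥ v) i = M.det * u i := by
    rw [h, mulVec_mulVec, adjugate_mul, smul_mulVec, one_mulVec]
    rfl
  have h2 := hom_quot hM.det (hom_adj_mulVec hM hv i) hf0 h1
  have := wt0_le i
  refine ⟨?_, fun h3 => h2.2 (by omega)⟩
  have h3 := h2.1
  rwa [show r + 5 - wt0 i - 6 = r - 1 - wt0 i by omega] at h3

/-- Six vectors of degree `r` which are independent modulo the image of `M`. -/
theorem exists_six (hM : FibShape M) (hf0 : M.det ≠ 0) (hr : 1 ≤ r)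
    (hdim : 3 * (r + 2).choose 2 + (r + 3).choose 2 ≤ finrank ℂ (Xh M g w r) + 6 * r) :
    ∃ v : Fin 6 → Fin 4 → R3, (∀ i, v i ∈ Xh M g w r) ∧
      ∀ (c : Fin 6 → ℂ) (u : Fin 4 → R3), (∑ i, c i • v i) = M *ᵥ u → c = 0 := by
  obtain ⟨hfin, hsrc⟩ := finrank_src hr
  have hc1 : (r + 2).choose 2 = (r + 1).choose 2 + (r + 1) := by
    rw [Nat.choose_succ_succ' (r + 1) 1, Nat.choose_one_right, add_comm]
  have hc2 : (r + 1).choose 2 = r.choose 2 + r := by
    rw [Nat.choose_succ_succ' r 1, Nat.choose_one_right, add_comm]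
  have hc3 : (r + 3).choose 2 = (r + 2).choose 2 + (r + 2) := by
    rw [Nat.choose_succ_succ' (r + 2) 1, Nat.choose_one_right, add_comm]
  have hX : 3 * (r + 1).choose 2 + r.choose 2 + 6 ≤ finrank ℂ (Xh M g w r) := by omega
  have hXfin : Module.Finite ℂ (Xh M g w r) := Module.finite_of_finrank_pos (by omega)
  set U : Submodule ℂ (Xh M g w r) := ((src r).map (imM M)).comap (Xh M g w r).subtype with hU
  have hUle : finrank ℂ U ≤ 3 * (r + 1).choose 2 + r.choose 2 := by
    have h1 : finrank ℂ U = finrank ℂ (U.map (Xh M g w r).subtype) :=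
      (LinearEquiv.finrank_eq (Submodule.equivMapOfInjective _
        (Submodule.injective_subtype _) U))
    have h2 : U.map (Xh M g w r).subtype ≤ (src r).map (imM M) := by
      rw [Submodule.map_le_iff_le_comap]
    have h3 : Module.Finite ℂ ((src r).map (imM M)) := Module.Finite.map _ _
    rw [h1]
    exact (Submodule.finrank_mono h2).trans ((Submodule.finrank_map_le _ _).trans hsrc)
  have hQ : 6 ≤ finrank ℂ (Xh M g w r ⧸ U) := by
    have h1 := Submodule.finrank_quotient_add_finrank U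
    omega
  let b := Module.finBasis ℂ (Xh M g w r ⧸ U)
  have hb : LinearIndependent ℂ fun i : Fin 6 => b (Fin.castLE hQ i) :=
    b.linearIndependent.comp _ (Fin.castLE_injective hQ)
  choose x hx using fun i : Fin 6 => U.mkQ_surjective (b (Fin.castLE hQ i))
  refine ⟨fun i => (x i : Fin 4 → R3), fun i => (x i).2, ?_⟩
  intro c u hcu
  have h1 : (∑ i, c i • x i) ∈ U := by
    rw [hU, Submodule.mem_comap]
    have h2 : (Xh M g w r).subtype (∑ i, c i • x i) = ∑ i, c i • (x i : Fin 4 → R3) := by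
      rw [map_sum]
      exact Finset.sum_congr rfl fun i _ => by rw [map_smul]; rfl
    rw [h2]
    refine mem_map_src hM hf0 hr ?_ hcu
    rw [← h2]
    exact (∑ i, c i • x i : Xh M g w r).2.1
  have h2 : ∑ i, c i • b (Fin.castLE hQ i) = 0 := by
    have h3 : U.mkQ (∑ i, c i • x i) = 0 := by
      rw [Submodule.mkQ_apply, Submodule.Quotient.mk_eq_zero]
      exact h1
    rw [map_sum] at h3
    rw [← h3]
    exact Finset.sum_congr rfl fun i _ => by rw [map_smul, hx]
  exact funext fun i => Fintype.linearIndependent_iff.mp hb c h2 i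

end spaces

/-- **Block [C].** -/
theorem stmtC : StmtC := by
  intro M g r w hS hB hsf hX0
  have hf0 : M.det ≠ 0 := hsf.ne_zero
  obtain ⟨T, S, z, c6, L⟩ := exists_goodLine hS.fib.det hsf hS.hom (by have := hS.pos; omega)
    hS.irr hS.ndvd
  obtain ⟨v, hv, hind⟩ := exists_six hS.fib hf0 hS.pos hB.dim
  have hvh : ∀ i j, (v i j).IsHomogeneous (r + wt0 j) := fun i => (hv i).1
  have hr := hS.pos
  obtain ⟨A, hAs, hA5, hA, hrk⟩ := exists_quintics hS.fib hS.hom hS.irr hS.ndvd v hvh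
    (fun i j => hB.pair r r (by omega) (by omega) _ (hv i) _ (hv j))
  have hker : ∀ c : Fin 6 → ℂ, (∀ k a, evl T (z k)
      ((M.adjugate *ᵥ (fun b => ∑ i, MvPolynomial.C (c i) * v i b)) a) = 0) → c = 0 := by
    intro c hc
    set x : Fin 4 → R3 := fun b => ∑ i, MvPolynomial.C (c i) * v i b with hx
    have hxe : x = ∑ i, c i • v i := by
      funext b
      rw [hx, Finset.sum_apply]
      exact Finset.sum_congr rfl fun i _ => by
        rw [Pi.smul_apply, MvPolynomial.smul_eq_C_mul]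
    have hxX : x ∈ Xh M g w r := by
      rw [hxe]
      exact Submodule.sum_mem _ fun i _ => Submodule.smul_mem _ _ (hv i)
    obtain ⟨u, v', hv', hMu, hxu⟩ := exists_of_evl_zero hS.fib L hr hxX.1 hc
    have hv'X : v' ∈ Xh M g w (r - 1) := by
      refine mem_Xh.mpr ⟨hv', fun e m hm hm' => ?_⟩
      refine L.mem_of_lam_mul hS.fib.det hS.hom (n := r - 1 + e + 5) (hom_pair hS.fib hv' hm) ?_
      have h1 : lam S * (v' ⬝ᵥ (M.adjugate *ᵥ m)) =
          x ⬝ᵥ (M.adjugate *ᵥ m) - (M *ᵥ u) ⬝ᵥ (M.adjugate *ᵥ m) := by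
        rw [hxu, add_dotProduct, smul_dotProduct, smul_eq_mul]
        ring
      rw [h1, mulVec_pair hS.fib.symm]
      refine Ideal.sub_mem _ (hxX.2 e m hm hm') ?_
      exact Ideal.mul_mem_right _ _ (Ideal.subset_span (by simp))
    obtain ⟨u', hu'⟩ := hX0 v' hv'X
    refine hind c (u + lam S • u') ?_
    rw [← hxe, hxu, hu', mulVec_add, mulVec_smul]
  have hA0 : A.det ≠ 0 := det_quintics hS.fib L v hA5 hA hker
  obtain ⟨M', c0, hc0, hM's, hM'1, hMA, hdet⟩ := exists_net_of_quintics hS.fib.det hsf hAs hA5 hrk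
    hA0
  exact ⟨M', A, v, c0, hc0, hM's, hAs, hM'1, hMA, hdet, fun i j k l => hrk i j k l, hA⟩

end Vale.Agent.P287.H270
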