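import Vale.Agent.P287.H270.Nod.IsoSb
import Vale.Agent.P287.Nod.ChartD
import Vale.Agent.P287.Theta.ChartTwo
import Vale.Agent.P287.H925V.Iso

/-!
Block [D1]: the degenerate binary form.
-/

namespace Vale.Agent.P287.H270

open Polynomial Matrix Module Vale.Agent.P287 Vale.Agent.P287.Theta Vale.Agent.P287.EvenN
open Vale.Agent.P287.Nod

/-- The gluing theorem in the chart, for a vector `V` with `Vᵀ adj(M) V = g ρ(x)²` modulo `det M`. -/
theorem isotropic_chart_sq {M : Matrix (Fin 4) (Fin 4) ℂ[X][X]} {g : ℂ[X][X]} {ρ : ℂ[X]}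
    (hM : M.IsSymm) (hf : Squarefree M.det) (pg : Prime g) (dg : g.natDegree ≠ 0)
    (hgf : ¬ g ∣ M.det) (hsq : ∃ s c, ¬ g ∣ c ∧ g ∣ c ^ 2 * M.det - s ^ 2) (hρ : ρ ≠ 0)
    {V : Fin 4 → ℂ[X][X]} (hV : M.det ∣ V ⬝ᵥ M.adjugate *ᵥ V - g * C ρ ^ 2) :
    ∃ v : Fin 4 → RatK, v ≠ 0 ∧ v ⬝ᵥ ((M.map crMap) *ᵥ v) = 0 := by
  have hf0 : M.det ≠ 0 := hf.ne_zero
  have hadjs : M.adjugate.IsSymm := hM.adjugate
  obtain ⟨y, hy⟩ := exists_generic' M.adjugate hadjs hf0 fun π hπ hπf =>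
    not_dvd_all (M' := M) (A := M.adjugate) (c := 1) hf (Matrix.mul_adjugate M)
      (by rw [one_mul]) hπ hπf
  set Y : Fin 4 → ℂ[X][X] := fun i => algebraMap ℂ ℂ[X][X] (y i) with hY
  have hδ : qv M.adjugate y = Y ⬝ᵥ M.adjugate *ᵥ Y := rfl
  have hrank : M.det ∣ (Y ⬝ᵥ M.adjugate *ᵥ V) ^ 2 -
      (Y ⬝ᵥ M.adjugate *ᵥ Y) * (V ⬝ᵥ M.adjugate *ᵥ V) :=
    rank_sq hadjs (fun i j k l => adj_minor M i j k l) Y V
  have hunit : IsUnit (crF (C ρ)) := H925V.unit_Cff hρ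
  have hA : (![0, C ρ] : Fin 2 → ℂ[X][X]) ⬝ᵥ
      (!![M.det, 0; 0, 1] : Matrix (Fin 2) (Fin 2) ℂ[X][X]) *ᵥ ![0, C ρ] = C ρ ^ 2 := by
    simp [Matrix.mulVec, dotProduct, Fin.sum_univ_two, sq]
  have H : ChartC M (!![1, 0; 0, M.det] : Matrix (Fin (2 * 1)) (Fin (2 * 1)) ℂ[X][X])
      (!![M.det, 0; 0, 1] : Matrix (Fin (2 * 1)) (Fin (2 * 1)) ℂ[X][X]) g
      (Y ⬝ᵥ M.adjugate *ᵥ V) Y (![0, C ρ] : Fin (2 * 1) → ℂ[X][X]) 1 := {
    hc0 := one_ne_zero
    sM := hM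
    sM' := by
      refine Matrix.ext fun i j => ?_
      fin_cases i <;> fin_cases j <;> rfl
    sA := by
      refine Matrix.ext fun i j => ?_
      fin_cases i <;> fin_cases j <;> rfl
    hMA := by
      refine Matrix.ext fun i j => ?_
      fin_cases i <;> fin_cases j <;> simp [Matrix.mul_apply, Fin.sum_univ_two]
    f0 := hf0
    pg := pg
    dg := dg
    hgf := hgf
    cδ := by
      refine coprime_crF hf0 fun π hπ hπf _ => ?_
      rw [← hδ]
      exact hy π hπ hπf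
    cA := by
      rw [hA, map_pow]
      exact (isCoprime_one_right.of_isCoprime_of_dvd_right (hunit.pow 2).dvd)
    rA := by
      intro i j k l
      fin_cases i <;> fin_cases j <;> fin_cases k <;> fin_cases l <;> simp <;>
        exact Dvd.intro (-1) (by ring)
    hb := by
      rw [hA]
      have e : (Y ⬝ᵥ M.adjugate *ᵥ V) ^ 2 - (Y ⬝ᵥ M.adjugate *ᵥ Y) * g * C ρ ^ 2 =
          ((Y ⬝ᵥ M.adjugate *ᵥ V) ^ 2 - (Y ⬝ᵥ M.adjugate *ᵥ Y) * (V ⬝ᵥ M.adjugate *ᵥ V)) +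
            (Y ⬝ᵥ M.adjugate *ᵥ Y) * (V ⬝ᵥ M.adjugate *ᵥ V - g * C ρ ^ 2) := by ring
      rw [e]
      exact dvd_add hrank (hV.mul_left _)
    hdet := by
      rw [C_1, C_1, one_mul]
      rw [Matrix.det_fin_two_of]
      ring
    hsq := hsq }
  obtain ⟨U, hU1, hU2⟩ := ChartC.lagrangian (n := 1) H
  exact exists_isotropic_of_binary U hU1 hU2

/-- A nonzero linear form becomes the first coordinate after a linear change of coordinates. -/
lemma exists_sb_eq_X0 {h : R3} (hh : h.IsHomogeneous 1) (h0 : h ≠ 0) :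
    ∃ T S : Matrix (Fin 3) (Fin 3) ℂ, T * S = 1 ∧ sb T h = MvPolynomial.X 0 := by
  obtain ⟨A, hA, hAh⟩ := exists_lin_eq_X hh h0
  have hAh' : sb A h = MvPolynomial.X 2 := hAh
  set P : Matrix (Fin 3) (Fin 3) ℂ := !![0, 0, 1; 0, 1, 0; 1, 0, 0] with hP
  have hPP : P * P = 1 := by
    ext i j
    fin_cases i <;> fin_cases j <;> simp [hP, Matrix.mul_apply, Fin.sum_univ_three]
  refine ⟨A * P, P * A⁻¹, ?_, ?_⟩
  · rw [← mul_assoc, mul_assoc A, hPP, mul_one, Matrix.mul_nonsing_inv _ hA]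
  · rw [← sb_sb, hAh', sb_X, Fin.sum_univ_three]
    simp [hP]

/-- **Block [D1].** -/
theorem stmtD1 : StmtD1 := by
  intro M g n hM hn hg hgi hgf hsqm hsf h s v hh h0 hs hsind hv
  obtain ⟨T, S, hTS, hTh⟩ := exists_sb_eq_X0 hh h0
  refine isotropic_sb hM hTS ?_
  -- the combination of `s 0`, `s 1` which does not contain the last coordinate
  choose c hc using fun i => Theta.exists_linear (sb_homog T (hs i))
  obtain ⟨q, hq0, hq⟩ : ∃ q : Fin 2 → ℂ, q ≠ 0 ∧ q 0 * c 0 2 + q 1 * c 1 2 = 0 := by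
    by_cases h2 : c 0 2 = 0 ∧ c 1 2 = 0
    · refine ⟨![1, 0], ?_, by simp [h2.1]⟩
      intro h3
      have := congrFun h3 0
      simp at this
    · refine ⟨![c 1 2, -c 0 2], ?_, by simp; ring⟩
      intro h3
      apply h2
      have h4 := congrFun h3 0
      have h5 := congrFun h3 1
      simp at h4 h5
      exact ⟨h5, h4⟩
  set σ : R3 := MvPolynomial.C (q 0) * s 0 + MvPolynomial.C (q 1) * s 1 with hσ
  have hσ0 : σ ≠ 0 := hsind q hq0
  have hσ1 : sb T σ = MvPolynomial.C (q 0 * c 0 0 + q 1 * c 1 0) * MvPolynomial.X 0 +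
      MvPolynomial.C (q 0 * c 0 1 + q 1 * c 1 1) * MvPolynomial.X 1 := by
    have hC : ∀ a : ℂ, sb T (MvPolynomial.C a) = MvPolynomial.C a := fun a => by
      rw [← MvPolynomial.algebraMap_eq, AlgHom.commutes]
    rw [hσ, map_add, map_mul, map_mul, hC, hC, hc 0, hc 1, Fin.sum_univ_three, Fin.sum_univ_three]
    have h2 := congrArg (MvPolynomial.C (σ := Fin 3)) hq
    simp only [map_add, map_mul, MvPolynomial.C_0] at h2 ⊢
    linear_combination (MvPolynomial.X 2 : R3) * h2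
  set ρ : ℂ[X] := C (q 0 * c 0 0 + q 1 * c 1 0) + C (q 0 * c 0 1 + q 1 * c 1 1) * X with hρ
  have hdσ : dh (sb T σ) = C ρ := by
    rw [hσ1, hρ]
    generalize q 0 * c 0 0 + q 1 * c 1 0 = a
    generalize q 0 * c 0 1 + q 1 * c 1 1 = b
    rw [map_add, map_mul, map_mul, dh_C, dh_C, dh_X0, dh_X1, mul_one, C_add, C_mul]
  have hρ0 : ρ ≠ 0 := by
    intro h2
    rw [h2, C_0] at hdσ
    have h3 : (sb T σ).IsHomogeneous 1 := by
      refine sb_homog T ?_
      exact ((hs 0).C_mul _).add ((hs 1).C_mul _)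
    have h4 := dh_eq_zero h3 hdσ
    have h5 := congrArg (sb S) h4
    rw [sb_inv hTS, map_zero] at h5
    exact hσ0 h5
  -- the vector
  set W : Fin 4 → R3 := fun i => MvPolynomial.C (q 0) * v 0 i + MvPolynomial.C (q 1) * v 1 i with hW
  have hWd : M.det ∣ W ⬝ᵥ (M.adjugate *ᵥ W) - g * (h * σ ^ 2) := by
    have hWe : W = (MvPolynomial.C (q 0) : R3) • v 0 + (MvPolynomial.C (q 1) : R3) • v 1 := by
      funext i
      rw [Pi.add_apply, Pi.smul_apply, Pi.smul_apply, smul_eq_mul, smul_eq_mul]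
    have e : W ⬝ᵥ (M.adjugate *ᵥ W) - g * (h * σ ^ 2) =
        MvPolynomial.C (q 0) * MvPolynomial.C (q 0) *
          (v 0 ⬝ᵥ (M.adjugate *ᵥ v 0) - g * (h * (s 0 * s 0))) +
        MvPolynomial.C (q 0) * MvPolynomial.C (q 1) *
          (v 0 ⬝ᵥ (M.adjugate *ᵥ v 1) - g * (h * (s 0 * s 1))) +
        MvPolynomial.C (q 1) * MvPolynomial.C (q 0) *
          (v 1 ⬝ᵥ (M.adjugate *ᵥ v 0) - g * (h * (s 1 * s 0))) +
        MvPolynomial.C (q 1) * MvPolynomial.C (q 1) *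
          (v 1 ⬝ᵥ (M.adjugate *ᵥ v 1) - g * (h * (s 1 * s 1))) := by
      rw [hWe, hσ]
      simp only [mulVec_add, mulVec_smul, dotProduct_add, add_dotProduct, dotProduct_smul,
        smul_dotProduct, smul_eq_mul]
      ring
    rw [e]
    exact dvd_add (dvd_add (dvd_add ((hv 0 0).mul_left _) ((hv 0 1).mul_left _))
      ((hv 1 0).mul_left _)) ((hv 1 1).mul_left _)
  -- the chart
  set M1 : Matrix (Fin 4) (Fin 4) R3 := M.map (sb T) with hM1
  have hM1s : M1.IsSymm := map_symm' _ hM.symm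
  have hdet1 : M1.det = sb T M.det := det_sb T M
  rw [← map_aeval_tvec]
  have hdet2 : (M1.map dh).det = dh (sb T M.det) := by rw [det_dh, hdet1]
  have hf1 : (sb T M.det).IsHomogeneous 6 := sb_homog T hM.det
  have hsf1 : Squarefree (sb T M.det) := by
    intro a ha
    have h1 := map_dvd (sb S) ha
    rw [map_mul, sb_inv hTS] at h1
    have h2 := (hsf _ h1).map (sb T)
    rwa [sb_inv (mul_eq_one_comm.mp hTS)] at h2
  have hg1 : (sb T g).IsHomogeneous n := sb_homog T hg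
  have hg1i : Irreducible (sb T g) := sb_irreducible hTS hgi
  refine isotropic_chart_sq (g := dh (sb T g)) (ρ := ρ)
    (V := fun i => dh (sb T (W i))) (map_symm' dh hM1s) ?_ (prime_dh hg1 hn hg1i)
    (natDegree_dh_ne hg1 hn hg1i) ?_ ?_ hρ0 ?_
  · rw [hdet2]
    exact squarefree_dh hf1 hsf1
  · rw [hdet2]
    exact fun h2 => hgf ((sb_dvd_iff hTS).mp (dvd_of_dh_dvd' hg1 hn hg1i hf1 h2))
  · rw [hdet2]
    exact (hsqm.sb hTS).dh hg1 hn hg1i
  · rw [hdet2]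
    have h2 := dh_dvd (map_dvd (sb T) hWd)
    have h4 : dh (sb T (W ⬝ᵥ (M.adjugate *ᵥ W))) =
        (fun i => dh (sb T (W i))) ⬝ᵥ ((M1.map dh).adjugate *ᵥ fun i => dh (sb T (W i))) := by
      have h5 : (M1.map dh).adjugate = M.adjugate.map ((dh.comp (sb T)).toRingHom) := by
        refine Matrix.ext fun i j => ?_
        rw [adj_dh, hM1, adj_sb]
        rfl
      rw [h5]
      exact Nod.map_qf ((dh.comp (sb T)).toRingHom) M.adjugate W W
    rwa [map_sub, map_sub, h4, map_mul, map_mul, map_mul, map_mul, map_pow, map_pow, hTh, dh_X0,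
      one_mul, hdσ] at h2

end Vale.Agent.P287.H270
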